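import Mathlib.Analysis.Normed.Module.Basic
import Mathlib.Topology.MetricSpace.Basic
import Mathlib.Algebra.Order.Archimedean.Real.Basic
import Mathlib.Algebra.Module.BigOperators
import Mathlib.Data.Int.Interval
import Mathlib.Data.Fintype.BigOperators
import Mathlib.Analysis.Normed.Group.Constructions
import Mathlib.Topology.MetricSpace.Pseudo.Pi
import Mathlib.Tactic.Module
import Mathlib.Tactic.Linarith

/-!
# P235 (helper958): Lipschitz extension from finite subsets of `ℝ^d`, with values in a normed space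

The constant depends on `d` only. Greedy permutation of the finite set, weights, packing.
-/

namespace Vale.Agent.P235.H958

open Finset

section avg

theorem avg_sub {E : Type*} [NormedAddCommGroup E] [NormedSpace ℝ E] {α : Type*} (s : Finset α)
    (a : α → ℝ) (y : α → E) (c : E) (hA : 0 < ∑ i ∈ s, a i) :
    (∑ i ∈ s, a i)⁻¹ • ∑ i ∈ s, a i • y i - c = (∑ i ∈ s, a i)⁻¹ • ∑ i ∈ s, a i • (y i - c) := by
  have : c = (∑ i ∈ s, a i)⁻¹ • ∑ i ∈ s, a i • c := by
    rw [← Finset.sum_smul, smul_smul, inv_mul_cancel₀ hA.ne', one_smul]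
  conv_lhs => rw [this]
  rw [← smul_sub, ← Finset.sum_sub_distrib]
  congr 1
  exact Finset.sum_congr rfl fun i _ => (smul_sub _ _ _).symm

theorem avg_bound {E : Type*} [NormedAddCommGroup E] [NormedSpace ℝ E] {α : Type*} (s : Finset α)
    (a : α → ℝ) (y : α → E) (R : ℝ) (ha : ∀ i ∈ s, 0 ≤ a i) (hA : 0 < ∑ i ∈ s, a i)
    (hy : ∀ i ∈ s, a i ≠ 0 → ‖y i‖ ≤ R) :
    ‖(∑ i ∈ s, a i)⁻¹ • ∑ i ∈ s, a i • y i‖ ≤ R := by
  rw [norm_smul, Real.norm_of_nonneg (inv_nonneg.mpr hA.le), inv_mul_le_iff₀ hA, Finset.sum_mul]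
  refine (norm_sum_le _ _).trans (Finset.sum_le_sum fun i hi => ?_)
  rw [norm_smul, Real.norm_of_nonneg (ha i hi)]
  by_cases h0 : a i = 0
  · simp [h0]
  · exact mul_le_mul_of_nonneg_left (hy i hi h0) (ha i hi)

theorem avg_diff {E : Type*} [NormedAddCommGroup E] [NormedSpace ℝ E] {α : Type*} (s : Finset α)
    (a b : α → ℝ) (y : α → E) (R : ℝ)
    (hb : ∀ i ∈ s, 0 ≤ b i) (hA : 0 < ∑ i ∈ s, a i) (hB : 0 < ∑ i ∈ s, b i)
    (hy : ∀ i ∈ s, a i ≠ 0 ∨ b i ≠ 0 → ‖y i‖ ≤ R) :
    ‖(∑ i ∈ s, a i)⁻¹ • ∑ i ∈ s, a i • y i - (∑ i ∈ s, b i)⁻¹ • ∑ i ∈ s, b i • y i‖ ≤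
      2 * R / (∑ i ∈ s, a i) * ∑ i ∈ s, |a i - b i| := by
  set A := ∑ i ∈ s, a i with hAdef
  set B := ∑ i ∈ s, b i with hBdef
  set D := ∑ i ∈ s, |a i - b i| with hDdef
  have hAB : |B - A| ≤ D := by
    rw [hAdef, hBdef, hDdef, ← Finset.sum_sub_distrib]
    refine (Finset.abs_sum_le_sum_abs _ _).trans (Finset.sum_le_sum fun i _ => ?_)
    rw [abs_sub_comm]
  have hsplit : A⁻¹ • ∑ i ∈ s, a i • y i - B⁻¹ • ∑ i ∈ s, b i • y i =
      A⁻¹ • ∑ i ∈ s, (a i - b i) • y i + (A⁻¹ * (B - A)) • (B⁻¹ • ∑ i ∈ s, b i • y i) := by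
    have h1 : ∑ i ∈ s, (a i - b i) • y i = ∑ i ∈ s, a i • y i - ∑ i ∈ s, b i • y i := by
      rw [← Finset.sum_sub_distrib]
      exact Finset.sum_congr rfl fun i _ => sub_smul _ _ _
    rw [h1, smul_sub, smul_smul]
    have h2 : A⁻¹ * (B - A) * B⁻¹ = A⁻¹ - B⁻¹ := by
      field_simp
    rw [h2, sub_smul]
    abel
  rw [hsplit]
  have hb1 : ‖A⁻¹ • ∑ i ∈ s, (a i - b i) • y i‖ ≤ A⁻¹ * (R * D) := by
    rw [norm_smul, Real.norm_of_nonneg (inv_nonneg.mpr hA.le)]
    refine mul_le_mul_of_nonneg_left ?_ (inv_nonneg.mpr hA.le)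
    rw [hDdef, Finset.mul_sum]
    refine (norm_sum_le _ _).trans (Finset.sum_le_sum fun i hi => ?_)
    rw [norm_smul, Real.norm_eq_abs, mul_comm]
    by_cases h0 : a i ≠ 0 ∨ b i ≠ 0
    · exact mul_le_mul_of_nonneg_right (hy i hi h0) (abs_nonneg _)
    · rw [not_or, not_not, not_not] at h0
      simp [h0.1, h0.2]
  have hb2 : ‖(A⁻¹ * (B - A)) • (B⁻¹ • ∑ i ∈ s, b i • y i)‖ ≤ A⁻¹ * (R * D) := by
    rw [norm_smul, norm_mul, Real.norm_of_nonneg (inv_nonneg.mpr hA.le), Real.norm_eq_abs,
      mul_assoc]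
    refine mul_le_mul_of_nonneg_left ?_ (inv_nonneg.mpr hA.le)
    have h3 := avg_bound s b y R hb hB fun i hi h => hy i hi (Or.inr h)
    rw [mul_comm R D]
    exact mul_le_mul hAB h3 (norm_nonneg _) ((abs_nonneg _).trans hAB)
  refine (norm_add_le _ _).trans ?_
  have h4 : 2 * R / A * D = A⁻¹ * (R * D) + A⁻¹ * (R * D) := by
    field_simp; ring
  rw [h4]
  exact add_le_add hb1 hb2

end avg

/-- **Greedy permutation** of a finite metric space: radii `R` (infinite at `s₁`) such that for all `t`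
the points with `R ≥ t` are a `t`-net and `t`-separated. -/
theorem greedy {α : Type*} [MetricSpace α] (S : Finset α) (hS : S.Nonempty) :
    ∃ (s₁ : α) (R : α → ℝ), s₁ ∈ S ∧
      (∀ t, 0 < t → ∀ s ∈ S, ∀ s' ∈ S, s ≠ s' → (s = s₁ ∨ t ≤ R s) → (s' = s₁ ∨ t ≤ R s') →
        t ≤ dist s s') ∧
      ∀ t, 0 < t → ∀ s ∈ S, ∃ s' ∈ S, (s' = s₁ ∨ t ≤ R s') ∧ dist s s' < t := by
  classical
  obtain ⟨s₁, hs₁⟩ := hS
  have key : ∀ k, k < S.card → ∃ (T : Finset α) (R : α → ℝ), T ⊆ S ∧ T.card = k + 1 ∧ s₁ ∈ T ∧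
      (∀ t, 0 < t → ∀ s ∈ T, ∀ s' ∈ T, s ≠ s' → (s = s₁ ∨ t ≤ R s) → (s' = s₁ ∨ t ≤ R s') →
        t ≤ dist s s') ∧
      ∀ t, 0 < t → (∀ s ∈ T, s = s₁ ∨ t ≤ R s) ∨
        ∀ s ∈ S, ∃ s' ∈ T, (s' = s₁ ∨ t ≤ R s') ∧ dist s s' < t := by
    intro k
    induction k with
    | zero =>
      intro _
      refine ⟨{s₁}, fun _ => 0, Finset.singleton_subset_iff.2 hs₁, by simp, by simp, ?_, ?_⟩
      · intro t _ s hs s' hs' hne
        rw [Finset.mem_singleton] at hs hs'
        exact absurd (hs.trans hs'.symm) hne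
      · intro t _
        left
        intro s hs
        left
        exact Finset.mem_singleton.1 hs
    | succ k ih =>
      intro hk
      obtain ⟨T, R, hTS, hTc, h1T, hsep, hnet⟩ := ih (by omega)
      have hTne : T.Nonempty := ⟨s₁, h1T⟩
      have hsd : (S \ T).Nonempty := by
        rw [← Finset.card_pos, Finset.card_sdiff_of_subset hTS]; omega
      set δ : α → ℝ := fun x => T.inf' hTne (fun s => dist x s) with hδ
      have hδle : ∀ x, ∀ s ∈ T, δ x ≤ dist x s := fun x s hs => Finset.inf'_le _ hs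
      have hδat : ∀ x, ∃ s ∈ T, δ x = dist x s := fun x => Finset.exists_mem_eq_inf' hTne _
      obtain ⟨p, hp, hmax⟩ := Finset.exists_max_image (S \ T) δ hsd
      rw [Finset.mem_sdiff] at hp
      have hall : ∀ x ∈ S, δ x ≤ δ p := by
        intro x hx
        by_cases hxT : x ∈ T
        · refine (hδle x x hxT).trans ?_
          rw [dist_self]
          obtain ⟨s, _, hs⟩ := hδat p
          rw [hs]; exact dist_nonneg
        · exact hmax x (Finset.mem_sdiff.2 ⟨hx, hxT⟩)
      have hp1 : p ≠ s₁ := fun h => hp.2 (by rw [h]; exact h1T)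
      set R' : α → ℝ := Function.update R p (δ p) with hR'
      have hR'p : R' p = δ p := Function.update_self _ _ _
      have hR'T : ∀ s ∈ T, R' s = R s := fun s hs =>
        Function.update_of_ne (fun h => hp.2 (by rw [← h]; exact hs)) _ _
      refine ⟨insert p T, R', Finset.insert_subset hp.1 hTS, ?_, Finset.mem_insert_of_mem h1T,
        ?_, ?_⟩
      · rw [Finset.card_insert_of_notMem hp.2, hTc]
      · intro t ht s hs s' hs' hne ha ha'
        rw [Finset.mem_insert] at hs hs'
        rcases hs with rfl | hs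
        · rcases hs' with rfl | hs'
          · exact absurd rfl hne
          · rcases ha with ha | ha
            · exact absurd ha hp1
            · rw [hR'p] at ha
              exact ha.trans (hδle _ s' hs')
        · rcases hs' with rfl | hs'
          · rcases ha' with ha' | ha'
            · exact absurd ha' hp1
            · rw [hR'p] at ha'
              rw [dist_comm]
              exact ha'.trans (hδle _ s hs)
          · rw [hR'T s hs] at ha
            rw [hR'T s' hs'] at ha'
            exact hsep t ht s hs s' hs' hne ha ha'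
      · intro t ht
        have lift : (∀ s ∈ S, ∃ s' ∈ T, (s' = s₁ ∨ t ≤ R s') ∧ dist s s' < t) →
            ∀ s ∈ S, ∃ s' ∈ insert p T, (s' = s₁ ∨ t ≤ R' s') ∧ dist s s' < t := by
          intro h s hs
          obtain ⟨s', hs', h1, h2⟩ := h s hs
          refine ⟨s', Finset.mem_insert_of_mem hs', ?_, h2⟩
          rw [hR'T s' hs']; exact h1
        rcases hnet t ht with h | h
        · by_cases htp : t ≤ δ p
          · left
            intro s hs
            rw [Finset.mem_insert] at hs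
            rcases hs with rfl | hs
            · right; rw [hR'p]; exact htp
            · rw [hR'T s hs]; exact h s hs
          · right
            apply lift
            intro s hs
            obtain ⟨s', hs', he⟩ := hδat s
            refine ⟨s', hs', h s' hs', ?_⟩
            rw [← he]
            exact (hall s hs).trans_lt (not_le.1 htp)
        · right; exact lift h
  have hpos : 0 < S.card := Finset.card_pos.2 ⟨s₁, hs₁⟩
  obtain ⟨T, R, hTS, hTc, h1T, hsep, hnet⟩ := key (S.card - 1) (by omega)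
  have hTeq : T = S := Finset.eq_of_subset_of_card_le hTS (by omega)
  subst hTeq
  refine ⟨s₁, R, h1T, hsep, fun t ht s hs => ?_⟩
  rcases hnet t ht with h | h
  · exact ⟨s, hs, h s hs, by rw [dist_self]; exact ht⟩
  · exact h s hs

/-- packing in `ℝ^d` -/
theorem packing {d : ℕ} (F : Finset (Fin d → ℝ)) (z : Fin d → ℝ) (t : ℝ) (ht : 0 < t)
    (h1 : ∀ s ∈ F, dist z s < 6 * t) (h2 : ∀ s ∈ F, ∀ s' ∈ F, s ≠ s' → t ≤ dist s s') :
    F.card ≤ 12 ^ d := by
  classical
  have hc : (Fintype.piFinset fun _ : Fin d => Finset.Ico (-6 : ℤ) 6).card = 12 ^ d := by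
    rw [Fintype.card_piFinset]; simp
  rw [← hc]
  refine Finset.card_le_card_of_injOn (fun s i => ⌊(s i - z i) / t⌋) ?_ ?_
  · intro s hs
    rw [Finset.mem_coe, Fintype.mem_piFinset]
    intro i
    have h3 : |s i - z i| < 6 * t := by
      have := (dist_le_pi_dist z s i).trans_lt (h1 s hs)
      rwa [Real.dist_eq, abs_sub_comm] at this
    rw [abs_lt] at h3
    rw [Finset.mem_Ico, Int.le_floor, Int.floor_lt]
    constructor
    · rw [le_div_iff₀ ht]; push_cast; linarith
    · rw [div_lt_iff₀ ht]; push_cast; linarith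
  · intro s hs s' hs' he
    by_contra hne
    have h3 := h2 s hs s' hs' hne
    refine absurd h3 (not_le.2 ?_)
    rw [dist_pi_lt_iff ht]
    intro i
    have h4 := congrFun he i
    simp only at h4
    have h5 := Int.floor_le ((s i - z i) / t)
    have h6 := Int.lt_floor_add_one ((s i - z i) / t)
    have h7 := Int.floor_le ((s' i - z i) / t)
    have h8 := Int.lt_floor_add_one ((s' i - z i) / t)
    rw [h4] at h5 h6
    rw [le_div_iff₀ ht] at h5 h7
    rw [div_lt_iff₀ ht] at h6 h8
    rw [Real.dist_eq, abs_lt]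
    constructor <;> nlinarith

section ext

variable {α : Type*} [MetricSpace α]

open Classical in
/-- the weight of `s` at `z` -/
noncomputable def wt (s₁ : α) (R : α → ℝ) (D : α → ℝ) (z s : α) : ℝ :=
  max 0 (if s = s₁ then 3 * D z - dist z s else min (3 * D z - dist z s) (2 * R s - D z))

theorem wt_nonneg (s₁ : α) (R D : α → ℝ) (z s : α) : 0 ≤ wt s₁ R D z s := le_max_left _ _

theorem wt_ne {s₁ : α} {R D : α → ℝ} {z s : α} (h : wt s₁ R D z s ≠ 0) :
    dist z s < 3 * D z ∧ (s = s₁ ∨ D z / 2 ≤ R s) := by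
  classical
  unfold wt at h
  by_cases hs : s = s₁
  · rw [if_pos hs] at h
    refine ⟨?_, Or.inl hs⟩
    by_contra h'
    exact h (max_eq_left (by linarith))
  · rw [if_neg hs] at h
    by_contra h'
    apply h
    apply max_eq_left
    rw [not_and_or] at h'
    rcases h' with h' | h'
    · exact (min_le_left _ _).trans (by linarith)
    · refine (min_le_right _ _).trans ?_
      rw [not_or, not_le] at h'
      linarith [h'.2]

theorem wt_lip {s₁ : α} {R D : α → ℝ} (hD : ∀ z z', |D z - D z'| ≤ dist z z') (z z' s : α) :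
    |wt s₁ R D z s - wt s₁ R D z' s| ≤ 4 * dist z z' := by
  classical
  unfold wt
  have h1 := hD z z'
  have h2 : |dist z s - dist z' s| ≤ dist z z' := abs_dist_sub_le z z' s
  have h0 : 0 ≤ dist z z' := dist_nonneg
  rw [abs_le] at h1 h2
  refine (abs_max_sub_max_le_max _ _ _ _).trans (max_le (by rw [sub_self, abs_zero]; linarith) ?_)
  split_ifs with hs
  · rw [abs_le]; constructor <;> linarith [h1.1, h1.2, h2.1, h2.2]
  · refine (abs_min_sub_min_le_max _ _ _ _).trans (max_le ?_ ?_)
    · rw [abs_le]; constructor <;> linarith [h1.1, h1.2, h2.1, h2.2]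
    · rw [abs_le]; constructor <;> linarith [h1.1, h1.2, h2.1, h2.2]

end ext

/-- Lipschitz extension from finite subsets of `ℝ^d`. -/
theorem lipExt (d : ℕ) : ∃ K : ℝ, 1 ≤ K ∧ ∀ (E : Type) [NormedAddCommGroup E] [NormedSpace ℝ E]
    (S : Set (Fin d → ℝ)), S.Finite → ∀ (f : (Fin d → ℝ) → E) (L : ℝ), 0 ≤ L →
    (∀ s ∈ S, ∀ s' ∈ S, ‖f s - f s'‖ ≤ L * dist s s') →
    ∃ g : (Fin d → ℝ) → E, (∀ s ∈ S, g s = f s) ∧ ∀ z z', ‖g z - g z'‖ ≤ K * L * dist z z' := by
  classical
  have hK0 : (0 : ℝ) ≤ 12 ^ d := by positivity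
  refine ⟨80 * 12 ^ d + 11, by linarith, ?_⟩
  intro E _ _ S₀ hfin f L hL hf
  rcases S₀.eq_empty_or_nonempty with rfl | hne
  · exact ⟨fun _ => 0, by simp, fun z z' => by simp only [sub_self, norm_zero]; positivity⟩
  set S : Finset (Fin d → ℝ) := hfin.toFinset with hSdef
  have hmem : ∀ s, s ∈ S ↔ s ∈ S₀ := fun s => hfin.mem_toFinset
  have hS : S.Nonempty := by
    obtain ⟨s, hs⟩ := hne; exact ⟨s, (hmem s).2 hs⟩
  have hf' : ∀ s ∈ S, ∀ s' ∈ S, ‖f s - f s'‖ ≤ L * dist s s' := fun s hs s' hs' =>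
    hf s ((hmem s).1 hs) s' ((hmem s').1 hs')
  obtain ⟨s₁, R, hs₁, hsep, hnet⟩ := greedy S hS
  -- nearest point
  have hν : ∀ z : Fin d → ℝ, ∃ s ∈ S, ∀ s' ∈ S, dist z s ≤ dist z s' := fun z =>
    Finset.exists_min_image S (fun s => dist z s) hS
  choose ν hνS hνmin using hν
  set D : (Fin d → ℝ) → ℝ := fun z => dist z (ν z) with hD
  have hD0 : ∀ z, 0 ≤ D z := fun z => dist_nonneg
  have hDle : ∀ z z', D z ≤ D z' + dist z z' := by
    intro z z'
    calc D z ≤ dist z (ν z') := hνmin z _ (hνS z')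
      _ ≤ dist z z' + dist z' (ν z') := dist_triangle _ _ _
      _ = _ := by rw [hD]; ring
  have hDlip : ∀ z z', |D z - D z'| ≤ dist z z' := by
    intro z z'
    rw [abs_le]
    have h1 := hDle z z'
    have h2 := hDle z' z
    rw [dist_comm z' z] at h2
    constructor <;> linarith
  have hDS : ∀ z ∈ S, ν z = z := by
    intro z hz
    have h1 : dist z (ν z) ≤ 0 := by rw [← dist_self z]; exact hνmin z z hz
    exact (dist_le_zero.1 h1).symm
  have hDpos : ∀ z, z ∉ S → 0 < D z := by
    intro z hz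
    rw [hD]
    exact dist_pos.2 fun h => hz (h ▸ hνS z)
  set w : (Fin d → ℝ) → (Fin d → ℝ) → ℝ := fun z s => wt s₁ R D z s with hw
  have hw0 : ∀ z s, 0 ≤ w z s := fun z s => wt_nonneg _ _ _ _ _
  have hsum : ∀ z, z ∉ S → D z ≤ ∑ s ∈ S, w z s := by
    intro z hz
    have hp := hDpos z hz
    obtain ⟨s', hs', h1, h2⟩ := hnet (D z) hp (ν z) (hνS z)
    refine le_trans ?_ (Finset.single_le_sum (f := fun s => w z s) (fun i _ => hw0 z i) hs')
    have h3 : dist z s' ≤ 2 * D z := by
      have := dist_triangle z (ν z) s'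
      have e : dist z (ν z) = D z := rfl
      linarith
    show D z ≤ wt s₁ R D z s'
    unfold wt
    refine le_trans ?_ (le_max_right _ _)
    split_ifs with hs
    · linarith
    · refine le_min (by linarith) ?_
      rcases h1 with h1 | h1
      · exact absurd h1 hs
      · linarith
  have hcard : ∀ z, z ∉ S → (S.filter fun s => w z s ≠ 0).card ≤ 12 ^ d := by
    intro z hz
    have hp := hDpos z hz
    refine packing _ z (D z / 2) (by linarith) ?_ ?_
    · intro s hs
      rw [Finset.mem_filter] at hs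
      have := (wt_ne hs.2).1
      linarith
    · intro s hs s' hs' hne
      rw [Finset.mem_filter] at hs hs'
      exact hsep (D z / 2) (by linarith) s hs.1 s' hs'.1 hne (wt_ne hs.2).2 (wt_ne hs'.2).2
  set g : (Fin d → ℝ) → E := fun z =>
    if z ∈ S then f z else (∑ s ∈ S, w z s)⁻¹ • ∑ s ∈ S, w z s • f s with hg
  have hnear : ∀ z, ‖g z - f (ν z)‖ ≤ 4 * L * D z := by
    intro z
    by_cases hz : z ∈ S
    · rw [hg]
      simp only [if_pos hz]
      rw [hDS z hz, sub_self, norm_zero]
      exact mul_nonneg (by linarith) (hD0 z)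
    · rw [hg]
      simp only [if_neg hz]
      have hA : 0 < ∑ s ∈ S, w z s := (hDpos z hz).trans_le (hsum z hz)
      rw [avg_sub _ _ _ _ hA]
      refine avg_bound _ _ _ _ (fun i _ => hw0 z i) hA fun i hi hne => ?_
      refine (hf' i hi _ (hνS z)).trans ?_
      have h1 := (wt_ne hne).1
      have h2 := dist_triangle i z (ν z)
      rw [dist_comm i z] at h2
      have e : dist z (ν z) = D z := rfl
      calc L * dist i (ν z) ≤ L * (4 * D z) := mul_le_mul_of_nonneg_left (by linarith) hL
        _ = _ := by ring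
  refine ⟨g, fun s hs => by rw [hg]; simp only [if_pos ((hmem s).2 hs)], ?_⟩
  intro z z'
  wlog hle : D z' ≤ D z generalizing z z' with H
  · rw [norm_sub_rev, dist_comm]
    exact H z' z (le_of_not_ge hle)
  have hδ : 0 ≤ dist z z' := dist_nonneg
  have hLδ : 0 ≤ L * dist z z' := mul_nonneg hL hδ
  by_cases hcase : D z ≤ dist z z'
  · have h1 := hnear z
    have h2 := hnear z'
    have h3 := hf' (ν z) (hνS z) (ν z') (hνS z')
    have h4 : dist (ν z) (ν z') ≤ D z + dist z z' + D z' := by
      have h5 := dist_triangle (ν z) z (ν z')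
      have h6 := dist_triangle z z' (ν z')
      rw [dist_comm (ν z) z] at h5
      have e : dist z (ν z) = D z := rfl
      have e' : dist z' (ν z') = D z' := rfl
      linarith
    have h7 : ‖g z - g z'‖ ≤ ‖g z - f (ν z)‖ + ‖f (ν z) - f (ν z')‖ + ‖g z' - f (ν z')‖ := by
      have : g z - g z' = (g z - f (ν z)) + (f (ν z) - f (ν z')) - (g z' - f (ν z')) := by abel
      rw [this]
      exact (norm_sub_le _ _).trans (add_le_add (norm_add_le _ _) le_rfl)
    have h8 : L * dist (ν z) (ν z') ≤ L * (3 * dist z z') :=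
      mul_le_mul_of_nonneg_left (by linarith) hL
    have h9 : L * D z ≤ L * dist z z' := mul_le_mul_of_nonneg_left hcase hL
    have h10 : L * D z' ≤ L * dist z z' := mul_le_mul_of_nonneg_left (hle.trans hcase) hL
    have h11 : 0 ≤ 80 * (12 : ℝ) ^ d * (L * dist z z') := by positivity
    nlinarith
  · rw [not_le] at hcase
    have hz : z ∉ S := by
      intro hz
      have : D z = 0 := by rw [hD]; simp only [hDS z hz, dist_self]
      linarith
    have hz' : z' ∉ S := by
      intro hz'
      have h0 : D z' = 0 := by rw [hD]; simp only [hDS z' hz', dist_self]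
      have := hDle z z'
      linarith
    have hposz := hDpos z hz
    have hposz' := hDpos z' hz'
    have hWz := hsum z hz
    have hWz' := hsum z' hz'
    have e1 : g z - g z' = (g z - f (ν z)) - (g z' - f (ν z)) := by abel
    rw [e1, hg]
    simp only [if_neg hz, if_neg hz']
    rw [avg_sub _ _ _ _ (hposz.trans_le hWz), avg_sub _ _ _ _ (hposz'.trans_le hWz')]
    refine (avg_diff S (w z) (w z') _ (5 * L * D z) (fun i _ => hw0 z' i) (hposz.trans_le hWz)
      (hposz'.trans_le hWz') ?_).trans ?_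
    · intro i hi hne
      refine (hf' i hi _ (hνS z)).trans ?_
      have h2 := dist_triangle i z (ν z)
      rw [dist_comm i z] at h2
      have e : dist z (ν z) = D z := rfl
      have h3 : dist z i ≤ 4 * D z := by
        rcases hne with hne | hne
        · have := (wt_ne hne).1
          linarith
        · have h4 := (wt_ne hne).1
          have h5 := dist_triangle z z' i
          linarith
      calc L * dist i (ν z) ≤ L * (5 * D z) := mul_le_mul_of_nonneg_left (by linarith) hL
        _ = _ := by ring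
    · have hsumle : ∑ s ∈ S, |w z s - w z' s| ≤ 2 * 12 ^ d * (4 * dist z z') := by
        set F := (S.filter fun s => w z s ≠ 0) ∪ (S.filter fun s => w z' s ≠ 0) with hF
        have hFc : (F.card : ℝ) ≤ 2 * 12 ^ d := by
          have h1 : F.card ≤ 12 ^ d + 12 ^ d :=
            (Finset.card_union_le _ _).trans (add_le_add (hcard z hz) (hcard z' hz'))
          have h2 : (F.card : ℝ) ≤ ((12 ^ d + 12 ^ d : ℕ) : ℝ) := by exact_mod_cast h1
          push_cast at h2
          linarith
        have hFS : F ⊆ S := Finset.union_subset (Finset.filter_subset _ _) (Finset.filter_subset _ _)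
        rw [← Finset.sum_subset hFS]
        · calc ∑ s ∈ F, |w z s - w z' s| ≤ ∑ _s ∈ F, 4 * dist z z' :=
              Finset.sum_le_sum fun s _ => wt_lip hDlip z z' s
            _ = F.card * (4 * dist z z') := by rw [Finset.sum_const, nsmul_eq_mul]
            _ ≤ _ := mul_le_mul_of_nonneg_right hFc (by positivity)
        · intro s hs hsF
          have h1 : w z s = 0 := by
            by_contra h
            exact hsF (Finset.mem_union_left _ (Finset.mem_filter.2 ⟨hs, h⟩))
          have h2 : w z' s = 0 := by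
            by_contra h
            exact hsF (Finset.mem_union_right _ (Finset.mem_filter.2 ⟨hs, h⟩))
          rw [h1, h2, sub_self, abs_zero]
      set A := ∑ s ∈ S, w z s with hAdef
      have hA : 0 < A := hposz.trans_le hWz
      have h5 : 2 * (5 * L * D z) / A ≤ 10 * L := by
        rw [div_le_iff₀ hA]
        have : L * D z ≤ L * A := mul_le_mul_of_nonneg_left hWz hL
        linarith
      have hsum0 : 0 ≤ ∑ s ∈ S, |w z s - w z' s| := Finset.sum_nonneg fun _ _ => abs_nonneg _
      calc 2 * (5 * L * D z) / A * ∑ s ∈ S, |w z s - w z' s|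
          ≤ 10 * L * (2 * 12 ^ d * (4 * dist z z')) := mul_le_mul h5 hsumle hsum0 (by positivity)
        _ ≤ (80 * 12 ^ d + 11) * L * dist z z' := by nlinarith

end Vale.Agent.P235.H958
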