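import Vale.Agent.P235.H538.Cost

/-!
P235 (helper958): section (10) of the planar `O(log log n)` proof, one macro move in one coordinate,
as a statement about real numbers.
-/

namespace Vale.Agent.P235.H958

open Finset Vale.Agent.P235.H538

/-- One macro move in one coordinate: `F j` is the gain of the step map `j` (present if `J ≥ j`), `G j` the
gain after the move if `J = j`. Before the first event the induction hypothesis gives `T ≤ G j`; at the
first event either the step map gains `T` or the end of the move gains `T / (1 - q)`. -/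
theorem all_move {Jm : ℕ} (hJ : 1 ≤ Jm) {T : ℝ} (F G : ℕ → ℝ)
    (hF : ∀ j ∈ Icc 1 Jm, 0 ≤ F j) (hG : ∀ j ∈ Icc 1 Jm, 0 ≤ G j) (ev : ℕ → Prop)
    (hcont : ∀ j ∈ Icc 1 Jm, (∀ i ∈ Icc 1 j, ¬ ev i) → T ≤ G j)
    (hev : ∀ j ∈ Icc 1 Jm, ev j → (∀ i ∈ Icc 1 Jm, i < j → ¬ ev i) →
      T ≤ F j ∨ T ≤ (1 - qq) * G j) :
    T ≤ ∑ j ∈ Icc 1 Jm, (qq ^ (j - 1) * F j + law Jm j * G j) := by
  classical
  have hq := qq_pos
  have hterm : ∀ i ∈ Icc 1 Jm, 0 ≤ qq ^ (i - 1) * F i + law Jm i * G i := fun i hi =>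
    add_nonneg (mul_nonneg (by positivity) (hF i hi)) (mul_nonneg (law_nonneg _ _) (hG i hi))
  have hge : ∀ i ∈ Icc 1 Jm, T ≤ G i → law Jm i * T ≤ qq ^ (i - 1) * F i + law Jm i * G i := by
    intro i hi h
    have h1 := mul_le_mul_of_nonneg_left h (law_nonneg Jm i)
    have h2 : 0 ≤ qq ^ (i - 1) * F i := mul_nonneg (by positivity) (hF i hi)
    linarith
  have hsum : ∑ i ∈ Icc 1 Jm, law Jm i * T = T := by
    rw [← Finset.sum_mul, law_sum hJ, one_mul]
  by_cases hex : ∃ j, j ∈ Icc 1 Jm ∧ ev j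
  · obtain ⟨hj, hevj⟩ := Nat.find_spec hex
    set j := Nat.find hex with hjdef
    have hmin : ∀ i ∈ Icc 1 Jm, i < j → ¬ ev i := fun i hi hij h =>
      Nat.find_min hex hij ⟨hi, h⟩
    rw [mem_Icc] at hj
    have hsplit : Icc 1 Jm = Icc 1 (j - 1) ∪ Icc j Jm := by
      ext i; simp only [mem_union, mem_Icc]; omega
    have hdisj : Disjoint (Icc 1 (j - 1)) (Icc j Jm) := by
      rw [Finset.disjoint_left]; intro i; simp only [mem_Icc]; omega
    have h1 : ∑ i ∈ Icc 1 (j - 1), law Jm i * T ≤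
        ∑ i ∈ Icc 1 (j - 1), (qq ^ (i - 1) * F i + law Jm i * G i) := by
      refine Finset.sum_le_sum fun i hi => ?_
      rw [mem_Icc] at hi
      have hi' : i ∈ Icc 1 Jm := mem_Icc.2 ⟨hi.1, by omega⟩
      refine hge i hi' (hcont i hi' fun k hk => ?_)
      rw [mem_Icc] at hk
      exact hmin k (mem_Icc.2 ⟨hk.1, by omega⟩) (by omega)
    have h2 : ∑ i ∈ Icc j Jm, law Jm i * T ≤
        ∑ i ∈ Icc j Jm, (qq ^ (i - 1) * F i + law Jm i * G i) := by
      rw [← Finset.sum_mul, law_tail' hj.1 hj.2]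
      have hjm : j ∈ Icc 1 Jm := mem_Icc.2 hj
      have h3 : qq ^ (j - 1) * T ≤ qq ^ (j - 1) * F j + law Jm j * G j := by
        have h4 : 0 ≤ qq ^ (j - 1) * F j := mul_nonneg (by positivity) (hF j hjm)
        have h5 : 0 ≤ law Jm j * G j := mul_nonneg (law_nonneg _ _) (hG j hjm)
        rcases hev j hjm hevj hmin with h | h
        · have := mul_le_mul_of_nonneg_left h (show 0 ≤ qq ^ (j - 1) by positivity)
          linarith
        · have h6 := mul_le_mul_of_nonneg_left h (show 0 ≤ qq ^ (j - 1) by positivity)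
          have h7 := mul_le_mul_of_nonneg_right (law_ge Jm j) (hG j hjm)
          have h8 : qq ^ (j - 1) * ((1 - qq) * G j) = (1 - qq) * qq ^ (j - 1) * G j := by ring
          linarith
      refine h3.trans ?_
      refine Finset.single_le_sum (f := fun i => qq ^ (i - 1) * F i + law Jm i * G i)
        (fun i hi => ?_) (mem_Icc.2 ⟨le_rfl, hj.2⟩)
      rw [mem_Icc] at hi
      exact hterm i (mem_Icc.2 ⟨by omega, hi.2⟩)
    rw [← hsum, hsplit, sum_union hdisj, sum_union hdisj]
    exact add_le_add h1 h2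
  · push Not at hex
    rw [← hsum]
    refine Finset.sum_le_sum fun i hi => hge i hi (hcont i hi fun k hk => ?_)
    rw [mem_Icc] at hi hk
    exact hex k (mem_Icc.2 ⟨hk.1, by omega⟩)

end Vale.Agent.P235.H958
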